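import Mathlib
import Vale.Agent.P183.Defs
import Vale.Agent.P183.Product
import Vale.Agent.P183.AllPairs

/-!
Bounded sublattices of finite products of seven small lattices of equivalence relations are
representable as congruence lattices of finite algebras.
-/

namespace Vale.Agent.Results.P183.VarietySevenLattices

open Vale.Agent.P183

theorem result : ∀ (L : Type) [Lattice L] [BoundedOrder L] (ι : Type) [Fintype ι] (c : ι → Fin 7)
    (φ : L → ∀ i, Setoid (Fin (size (c i)))), Function.Injective φ →
    (∀ x y, φ (x ⊔ y) = φ x ⊔ φ y) → (∀ x y, φ (x ⊓ y) = φ x ⊓ φ y) →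
    φ ⊥ = ⊥ → φ ⊤ = ⊤ → (∀ x i, φ x i ∈ Lat (c i)) → Representable L := by
  intro L _ _ ι _ c φ hinj hsup hinf hbot htop hmem
  have : ∀ i, Nonempty (Fin (size (c i))) := fun i => ⟨⟨0, size_pos (c i)⟩⟩
  exact representable_of_pairClosed (fun i => Lat (c i)) (fun i j => pairClosed_Lat (c i) (c j))
    (fun i => singleClosed_Lat (c i)) φ hinj hsup hinf hbot htop hmem

end Vale.Agent.Results.P183.VarietySevenLattices
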